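import Mathlib.Analysis.InnerProductSpace.Basic
import Mathlib.Analysis.SpecificLimits.Basic

/-!
# The abstract projection lemma (Stage 4, block ABS)

`V` a real (semi-definite) inner product space, `A : V → V` symmetric and nonnegative with
`λ (inner ℝ (A u) (u)) ≤ ‖A u‖²` and with `A + δ` of dense range for one `δ > 0`.  Then every `s` has a
Cauchy sequence `f k` with `(inner ℝ (A (f k)) (f k)) → 0` and `lim ‖s - f k‖² ≤ (inner ℝ (A s) (s)) / λ`.
-/

open Filter Topology

noncomputable section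

namespace Vale.Agent.P272.KOD

section
variable {V : Type*} [SeminormedAddCommGroup V] [InnerProductSpace ℝ V]


lemma abs_cs (A : V →ₗ[ℝ] V) (hA : ∀ u v, (inner ℝ (A u) (v)) = (inner ℝ (u) (A v))) (hpos : ∀ u, 0 ≤ (inner ℝ (A u) (u)))
    (u v : V) : (inner ℝ (A u) (v)) ^ 2 ≤ (inner ℝ (A u) (u)) * (inner ℝ (A v) (v)) := by
  have h : ∀ t : ℝ, 0 ≤ (inner ℝ (A v) (v)) * (t * t) + 2 * (inner ℝ (A u) (v)) * t + (inner ℝ (A u) (u)) := by
    intro t
    have h1 := hpos (u + t • v)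
    simp only [map_add, map_smul, inner_add_left, inner_add_right, inner_smul_left,
      inner_smul_right] at h1
    have h2 : (inner ℝ (A v) (u)) = (inner ℝ (A u) (v)) := by
      rw [hA v u, real_inner_comm]
    simp only [h2, conj_trivial] at h1
    nlinarith
  have h3 := discrim_le_zero h
  unfold discrim at h3
  nlinarith

theorem abs_proj (A : V →ₗ[ℝ] V) (hA : ∀ u v, (inner ℝ (A u) (v)) = (inner ℝ (u) (A v)))
    (hpos : ∀ u, 0 ≤ (inner ℝ (A u) (u))) {lam : ℝ} (hlam : 0 < lam)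
    (ha : ∀ u, lam * (inner ℝ (A u) (u)) ≤ ‖A u‖ ^ 2) {δ : ℝ} (hδ : 0 < δ)
    (hb : ∀ v : V, ∀ ε > 0, ∃ u : V, ‖A u + δ • u - v‖ ≤ ε) (s : V) :
    ∃ f : ℕ → V, (∀ ε > 0, ∃ N, ∀ j ≥ N, ∀ k ≥ N, ‖f j - f k‖ ≤ ε) ∧
      Tendsto (fun k => (inner ℝ (A (f k)) (f k))) atTop (𝓝 0) ∧
      ∀ ε > 0, ∃ N, ∀ k ≥ N, ‖s - f k‖ ^ 2 ≤ (inner ℝ (A s) (s)) / lam + ε := by
  classical
  set E : ℝ := (inner ℝ (A s) (s)) with hE
  have hE0 : 0 ≤ E := hpos s
  set e : ℕ → ℝ := fun k => 1 / ((k : ℝ) + 1) with he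
  have he0 : ∀ k, 0 < e k := fun k => by simp only [he]; positivity
  have hbdd : BddBelow (Set.range fun u : V => ‖s - A u‖ ^ 2) :=
    ⟨0, by rintro _ ⟨u, rfl⟩; positivity⟩
  set d : ℝ := ⨅ u : V, ‖s - A u‖ ^ 2 with hd
  have h1 : ∀ v, d ≤ ‖s - A v‖ ^ 2 := fun v => ciInf_le hbdd v
  have h2' : ∀ k, ∃ u : V, ‖s - A u‖ ^ 2 < d + e k ^ 2 := fun k =>
    exists_lt_of_ciInf_lt (by have := he0 k; simp only [← hd]; nlinarith [sq_pos_of_pos this])
  choose u hu using h2'
  set P : ℕ → V := fun k => s - A (u k) with hP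
  have h3 : ∀ j k, ‖P j - P k‖ ^ 2 ≤ 2 * e j ^ 2 + 2 * e k ^ 2 := by
    intro j k
    have h4 : ‖P j + P k‖ ^ 2 + ‖P j - P k‖ ^ 2 = 2 * (‖P j‖ ^ 2 + ‖P k‖ ^ 2) := by
      have := parallelogram_law_with_norm ℝ (P j) (P k)
      nlinarith
    have h5 : P j + P k = (2 : ℝ) • (s - A ((2⁻¹ : ℝ) • (u j + u k))) := by
      simp only [hP, map_smul, map_add]
      module
    have h6 : 4 * d ≤ ‖P j + P k‖ ^ 2 := by
      rw [h5, norm_smul, mul_pow]
      have := h1 ((2⁻¹ : ℝ) • (u j + u k))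
      simp only [Real.norm_ofNat]
      nlinarith
    have h7 := (hu j).le
    have h8 := (hu k).le
    change ‖P j‖ ^ 2 ≤ _ at h7
    change ‖P k‖ ^ 2 ≤ _ at h8
    nlinarith
  have h4 : ∀ k v, (inner ℝ (P k) (A v)) ^ 2 ≤ (e k * ‖A v‖) ^ 2 := by
    intro k v
    have h : ∀ t : ℝ, 0 ≤ ‖A v‖ ^ 2 * (t * t) + (-(2 * (inner ℝ (P k) (A v)))) * t + e k ^ 2 := by
      intro t
      have h5 := h1 (u k + t • v)
      have h6 : s - A (u k + t • v) = P k - t • A v := by
        simp only [hP, map_add, map_smul]; abel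
      rw [h6, norm_sub_sq_real, norm_smul, inner_smul_right, mul_pow, Real.norm_eq_abs,
        sq_abs] at h5
      have h7 := (hu k).le
      change ‖P k‖ ^ 2 ≤ _ at h7
      nlinarith
    have h8 := discrim_le_zero h
    unfold discrim at h8
    nlinarith
  have h4' : ∀ k v, |(inner ℝ (P k) (A v))| ≤ e k * ‖A v‖ := fun k v =>
    abs_le_of_sq_le_sq (h4 k v) (by have := (he0 k).le; positivity)
  have h5 : ∀ k, ‖A (u k)‖ ≤ √(E / lam) + e k := by
    intro k
    have h6 : (inner ℝ (s) (A (u k))) ^ 2 ≤ (√(E / lam) * ‖A (u k)‖) ^ 2 := by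
      rw [mul_pow, Real.sq_sqrt (by positivity), ← hA]
      have h7 := abs_cs A hA hpos s (u k)
      have h8 := ha (u k)
      have h9 : (inner ℝ (A (u k)) (u k)) ≤ ‖A (u k)‖ ^ 2 / lam := by
        rw [le_div_iff₀ hlam]; linarith
      calc _ ≤ _ := h7
        _ ≤ E * (‖A (u k)‖ ^ 2 / lam) := by gcongr
        _ = _ := by ring
    have h7 : (inner ℝ (s) (A (u k))) ≤ √(E / lam) * ‖A (u k)‖ :=
      (abs_le_of_sq_le_sq h6 (by positivity)).trans' (le_abs_self _)
    have h8 : ‖A (u k)‖ ^ 2 = (inner ℝ (s) (A (u k))) - (inner ℝ (P k) (A (u k))) := by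
      rw [← inner_sub_left]
      simp only [hP, sub_sub_cancel, real_inner_self_eq_norm_sq]
    have h9 := neg_abs_le (inner ℝ (P k) (A (u k)))
    have h10 := h4' k (u k)
    by_contra hc
    push Not at hc
    have h11 : 0 < ‖A (u k)‖ := lt_trans (by have := he0 k; positivity) hc
    nlinarith
  have h6' : ∀ k, ∃ f : V, ‖A f + δ • f - δ • P k‖ ≤ e k := fun k => hb _ _ (he0 k)
  choose f hf using h6'
  have h7 : ∀ v, ‖A v + δ • v‖ ^ 2 = ‖A v‖ ^ 2 + 2 * δ * (inner ℝ (A v) (v)) + δ ^ 2 * ‖v‖ ^ 2 := by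
    intro v
    rw [norm_add_sq_real, inner_smul_right, norm_smul, mul_pow, Real.norm_eq_abs, sq_abs]
    ring
  have h7a : ∀ v, ‖A v‖ ≤ ‖A v + δ • v‖ := fun v =>
    le_of_sq_le_sq (by rw [h7]; have := hpos v; nlinarith [mul_nonneg hδ.le this, mul_nonneg (sq_nonneg δ) (sq_nonneg ‖v‖)]) (norm_nonneg _)
  have h7b : ∀ v, ‖v‖ ≤ δ⁻¹ * ‖A v + δ • v‖ := fun v => by
    have h8 : δ * ‖v‖ ≤ ‖A v + δ • v‖ :=
      le_of_sq_le_sq (by rw [h7, mul_pow]; have := hpos v; nlinarith [mul_nonneg hδ.le this, sq_nonneg ‖A v‖]) (norm_nonneg _)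
    rw [inv_mul_eq_div, le_div_iff₀ hδ]; linarith
  set c : ℝ := 1 + δ⁻¹ with hc
  have hc0 : 0 < c := by positivity
  have h8 : ∀ k v, (inner ℝ (f k - P k) (A v + δ • v)) ≤ c * e k * ‖A v + δ • v‖ := by
    intro k v
    have h9 : (inner ℝ (f k - P k) (A v + δ • v)) = (inner ℝ (A (f k) + δ • f k - δ • P k) (v)) - (inner ℝ (P k) (A v)) := by
      simp only [inner_sub_left, inner_add_left, inner_add_right, inner_smul_left,
        inner_smul_right, hA, conj_trivial]
      ring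
    have h10 : (inner ℝ (A (f k) + δ • f k - δ • P k) (v)) ≤ e k * ‖v‖ :=
      (real_inner_le_norm _ _).trans (by gcongr; exact hf k)
    have h11 := neg_abs_le (inner ℝ (P k) (A v))
    have h12 := h4' k v
    have h13 := mul_le_mul_of_nonneg_left (h7a v) (he0 k).le
    have h14 := mul_le_mul_of_nonneg_left (h7b v) (he0 k).le
    rw [h9, hc]
    nlinarith
  have h9 : ∀ k, ‖f k - P k‖ ≤ c * e k := by
    intro k
    by_contra hcon
    push Not at hcon
    set D := f k - P k with hD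
    have hD0 : 0 < ‖D‖ := lt_trans (by have := he0 k; positivity) hcon
    set g : ℝ := ‖D‖ - c * e k with hg
    have hg0 : 0 < g := by linarith
    set η : ℝ := g * ‖D‖ / (2 * (c * e k + ‖D‖)) with hη
    have hce : 0 < c * e k := mul_pos hc0 (he0 k)
    have hη0 : 0 < η := by positivity
    obtain ⟨v, hv⟩ := hb D η hη0
    have h10 := h8 k v
    have h11 : ‖D‖ ^ 2 = (inner ℝ (D) (A v + δ • v)) - (inner ℝ (D) (A v + δ • v - D)) := by
      rw [← inner_sub_right, sub_sub_cancel, real_inner_self_eq_norm_sq]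
    have h12 : -(inner ℝ (D) (A v + δ • v - D)) ≤ ‖D‖ * η := by
      have := (abs_real_inner_le_norm D (A v + δ • v - D)).trans
        (mul_le_mul_of_nonneg_left hv hD0.le)
      exact (neg_le_abs _).trans this
    have h13 : ‖A v + δ • v‖ ≤ ‖D‖ + η := by
      have : A v + δ • v = D + (A v + δ • v - D) := by abel
      rw [this]
      exact (norm_add_le _ _).trans (by gcongr)
    have h14 : ‖D‖ ^ 2 ≤ c * e k * (‖D‖ + η) + ‖D‖ * η := by
      rw [h11]
      have := mul_le_mul_of_nonneg_left h13 hce.le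
      linarith
    have h15 : η * (c * e k + ‖D‖) = g * ‖D‖ / 2 := by
      rw [hη]; field_simp
    nlinarith
  have hlim : Tendsto e atTop (𝓝 0) := tendsto_one_div_add_atTop_nhds_zero_nat
  have h10 : ∀ k, ‖A (f k)‖ ≤ (1 + δ * c) * e k := by
    intro k
    have h11 : A (f k) = (A (f k) + δ • f k - δ • P k) - δ • (f k - P k) := by module
    rw [h11]
    refine (norm_sub_le _ _).trans ?_
    rw [norm_smul, Real.norm_eq_abs, abs_of_pos hδ]
    have := mul_le_mul_of_nonneg_left (h9 k) hδ.le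
    have h12 := hf k
    nlinarith
  have he1 : ∀ k, e k ≤ 1 := fun k => by
    simp only [he]
    rw [div_le_one (by positivity)]
    have : (0 : ℝ) ≤ k := Nat.cast_nonneg k
    linarith
  have h11 : ∀ k, ‖f k‖ ≤ c + √(d + 1) := by
    intro k
    have h12 : ‖P k‖ ≤ √(d + 1) := by
      apply Real.le_sqrt_of_sq_le
      have h7 := (hu k).le
      change ‖P k‖ ^ 2 ≤ _ at h7
      have := he1 k
      have := he0 k
      nlinarith
    have h13 : f k = (f k - P k) + P k := by abel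
    rw [h13]
    refine (norm_add_le _ _).trans (add_le_add ((h9 k).trans ?_) h12)
    have := he1 k
    nlinarith
  refine ⟨f, ?_, ?_, ?_⟩
  · intro ε hε
    have hl : Tendsto (fun k => (c + 2) * e k) atTop (𝓝 0) := by
      simpa using hlim.const_mul (c + 2)
    obtain ⟨N, hN⟩ := eventually_atTop.1 (hl.eventually (gt_mem_nhds (half_pos hε)))
    refine ⟨N, fun j hj k hk => ?_⟩
    have h12 : f j - f k = (f j - P j) + (P j - P k) - (f k - P k) := by abel
    have h13 : ‖P j - P k‖ ≤ 2 * e j + 2 * e k := by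
      refine le_of_sq_le_sq ?_ (by have := he0 j; have := he0 k; positivity)
      have := h3 j k
      have := he0 j
      have := he0 k
      nlinarith [mul_pos (he0 j) (he0 k)]
    rw [h12]
    refine (norm_sub_le _ _).trans ?_
    have h14 := norm_add_le (f j - P j) (P j - P k)
    have h15 := h9 j
    have h16 := h9 k
    have h17 := hN j hj
    have h18 := hN k hk
    nlinarith
  · have hl : Tendsto (fun k => (1 + δ * c) * e k * (c + √(d + 1))) atTop (𝓝 0) := by
      simpa using (hlim.const_mul (1 + δ * c)).mul_const (c + √(d + 1))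
    refine squeeze_zero (fun k => hpos _) (fun k => ?_) hl
    refine (real_inner_le_norm _ _).trans ?_
    have := he0 k
    gcongr
    · exact h10 k
    · exact h11 k
  · intro ε hε
    have hl : Tendsto (fun k => (√(E / lam) + (1 + c) * e k) ^ 2) atTop (𝓝 ((√(E / lam) + 0) ^ 2)) := by
      refine (tendsto_const_nhds.add ?_).pow 2
      simpa using hlim.const_mul (1 + c)
    rw [add_zero, Real.sq_sqrt (by positivity)] at hl
    obtain ⟨N, hN⟩ := eventually_atTop.1 (hl.eventually (gt_mem_nhds (show E / lam < E / lam + ε by linarith)))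
    refine ⟨N, fun k hk => ?_⟩
    have h12 : s - f k = A (u k) - (f k - P k) := by simp only [hP]; abel
    have h13 : ‖s - f k‖ ≤ √(E / lam) + (1 + c) * e k := by
      rw [h12]
      refine (norm_sub_le _ _).trans ?_
      have := h5 k
      have := h9 k
      linarith
    exact (pow_le_pow_left₀ (norm_nonneg _) h13 2).trans (hN k hk).le

end

end Vale.Agent.P272.KOD
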